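import Vale.Agent.Lib.P033.Basic

/-!
# P033: blocks (and monochromatic progressions) in the first row of a circulant Hadamard matrix

If the first row `h` of a real circulant Hadamard matrix of order `n` is constant along an
arithmetic progression `j0, j0 + d, …, j0 + (L - 1) d` of `L` distinct indices modulo `n`, then
`L (L + 2) ≤ 4 n`, that is `L ≤ 2 √n - 1`.  For `d = 1` this bounds the length of every block
of equal consecutive signs; the first row `(1, 1, 1, -1)` of order four attains the bound.
-/

namespace Vale.Agent.Results.P033.A_BlockLength

open Vale.Agent.Lib.P033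

theorem result :
    ∀ (n : ℕ) [NeZero n] (h : ZMod n → ℤ), IsCirculantHadamardRow n h →
      ∀ (j0 d : ZMod n) (L : ℕ),
        (∀ i k : ℕ, i < L → k < L → (i : ZMod n) * d = (k : ZMod n) * d → i = k) →
        (∀ i : ℕ, i < L → h (j0 + (i : ZMod n) * d) = h j0) →
        L * (L + 2) ≤ 4 * n := by
  intro n _ h hh j0 d L hinj hconst
  exact progression_bound hh j0 d L hinj hconst

end Vale.Agent.Results.P033.A_BlockLength
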