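import Vale.Agent.Lib.P033.Reflect

/-!
# P033: distance between the first row of a circulant Hadamard matrix and its reflections

Let `h` be the first row of a real circulant Hadamard matrix of order `n > 4`.  For a residue
`c` modulo `n` let `d c` be the number of positions `j` with `h (c - j) ≠ h j`, the Hamming
distance between the row and its reflection `j ↦ h (c - j)`.  Then

* `4 ≤ d c` and `n ≤ (n - d c) ^ 2` for every `c`;
* `n ≤ (d c) ^ 2` for every odd `c`;
* `n ≤ (d c) ^ 2 + (d c') ^ 2` whenever `c ≡ 0` and `c' ≡ 2` modulo four.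
-/

namespace Vale.Agent.Results.P033.C_ReflectionDistance

open Vale.Agent.Lib.P033

theorem result :
    ∀ (n : ℕ) [NeZero n] (h : ZMod n → ℤ), IsCirculantHadamardRow n h → 4 < n →
      (∀ c : ZMod n,
        4 ≤ (Finset.univ.filter (fun j : ZMod n => h (c - j) ≠ h j)).card ∧
        n ≤ (Finset.univ.filter (fun j : ZMod n => h (c - j) = h j)).card ^ 2) ∧
      (∀ c : ZMod n, Odd c.val →
        n ≤ (Finset.univ.filter (fun j : ZMod n => h (c - j) ≠ h j)).card ^ 2) ∧
      (∀ c c' : ZMod n, c.val % 4 = 0 → c'.val % 4 = 2 →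
        n ≤ (Finset.univ.filter (fun j : ZMod n => h (c - j) ≠ h j)).card ^ 2
          + (Finset.univ.filter (fun j : ZMod n => h (c' - j) ≠ h j)).card ^ 2) := by
  intro n _ h hh hn
  have h1 : n ≠ 1 := by omega
  obtain ⟨m, hm, -⟩ := order_even hh h1
  have hd : 2 ∣ n := ⟨m, hm⟩
  have h4 : 4 ∣ n := four_dvd hh h1
  refine ⟨fun c => ⟨reflect_defect hh hn c, reflect_agree hh c⟩, fun c hc => ?_,
    fun c c' hc hc' => reflect_defect_mod4 hh h4 c c' hc hc'⟩
  exact reflect_defect_odd hh hd c (altSign_of_odd hd c hc)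

end Vale.Agent.Results.P033.C_ReflectionDistance
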